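import Vale.Agent.P214.MU.Theta

/-!
# P214, block MONO-UP: the density of a stationary integral varifold

Main facts (`V` stationary in the open set `U`):
* `V.bratio_mono`, `V.kratio_mono` : monotonicity of mass ratios, for balls / general kernels;
* `V.theta` : density, `V.tendsto_bratio`, `V.tendsto_kratio`, `V.le_ball`, `V.le_closedBall`;
* `V.theta_lt_near`, `V.isOpen_theta_lt`, `V.ratio_lt_near` : upper semicontinuity;
* `V.one_le_theta` on `spt`, `V.theta_eq_zero` off `spt`;
* `V.theta_eq_mult` : `theta = mult` a.e.; `V.ae_good` : `H^m`-a.e. point of `spt` has a natural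
  density and an approximate tangent plane;
* `V.hausdorff_null_spt`, `V.exists_min_density`.
-/

open Set Filter Topology MeasureTheory Metric
open scoped RealInnerProductSpace ENNReal

set_option linter.all false

namespace Vale.Agent.P214

open MU

variable {E : Type*} [NormedAddCommGroup E] [InnerProductSpace ℝ E] [FiniteDimensional ℝ E]
  [MeasurableSpace E] [BorelSpace E]

variable {m : ℕ} {U : Set E}

namespace IntegralVarifold

variable (V : IntegralVarifold m U)

/-- the density of the varifold (normalised so that a multiplicity `q` plane has density `q`) -/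
noncomputable def theta (x : E) : ℝ := MU.theta m V.weight x

lemma real_restrict {x : E} {R : ℝ} {A : Set E} (hA : A ⊆ closedBall x R) :
    (V.weight.restrict (closedBall x R)).real A = V.weight.real A := by
  rw [measureReal_def, measureReal_def, Measure.restrict_apply' measurableSet_closedBall,
    inter_eq_left.2 hA]

lemma bratio_restrict {x z : E} {R r : ℝ} (hA : ball z r ⊆ closedBall x R) :
    bratio m (V.weight.restrict (closedBall x R)) z r = bratio m V.weight z r := by
  unfold bratio; rw [V.real_restrict hA]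

lemma eventually_ball_subset {x z : E} {R : ℝ} (hz : z ∈ ball x R) :
    ∀ᶠ r in 𝓝[>] (0:ℝ), closedBall z r ⊆ ball x R := by
  have hpos : 0 < R - dist z x := by rw [mem_ball] at hz; linarith
  filter_upwards [Ioo_mem_nhdsGT hpos] with r hr
  exact closedBall_subset_ball' (by linarith [hr.2])

lemma theta_restrict {x z : E} {R : ℝ} (hz : z ∈ ball x R) :
    MU.theta m (V.weight.restrict (closedBall x R)) z = V.theta z := by
  unfold theta MU.theta limUnder
  congr 1
  refine Filter.map_congr ?_
  filter_upwards [eventually_ball_subset hz] with r hr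
  rw [V.bratio_restrict (ball_subset_closedBall.trans (hr.trans ball_subset_closedBall))]

/-- a slightly larger closed ball stays inside -/
lemma exists_bigger {x : E} {r : ℝ} (hU : IsOpen U) (h : closedBall x r ⊆ U) (hr : 0 ≤ r) :
    ∃ R, r < R ∧ closedBall x R ⊆ U := by
  obtain ⟨δ, hδ, hsub⟩ := (isCompact_closedBall x r).exists_cthickening_subset_open hU h
  refine ⟨r + δ, by linarith, ?_⟩
  rw [cthickening_closedBall hδ.le hr, add_comm] at hsub
  exact hsub

variable {V}

lemma bratio_mono (hst : V.IsStationary) {x : E} {r₁ r₂ : ℝ} (h1 : 0 < r₁) (h12 : r₁ ≤ r₂)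
    (hball : closedBall x r₂ ⊆ U) : bratio m V.weight x r₁ ≤ bratio m V.weight x r₂ := by
  rcases h12.eq_or_lt with rfl | hlt
  · exact le_rfl
  have hfin := V.finite_restrict hball
  have hls := V.locStat hst hball
  have := hls.bratio_mono' (x := x) h1 hlt subset_rfl
  rwa [V.bratio_restrict ball_subset_closedBall, V.bratio_restrict ((ball_subset_ball h12).trans
    ball_subset_closedBall)] at this

lemma integral_restrict {x z : E} {R r : ℝ} {φ : ℝ → ℝ} (hφ : Profile φ) (hr : 0 < r)
    (hA : closedBall z r ⊆ closedBall x R) :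
    ∫ y, kc φ z r y ∂(V.weight.restrict (closedBall x R)) = ∫ y, kc φ z r y ∂V.weight := by
  refine setIntegral_eq_integral_of_forall_compl_eq_zero fun y hy => ?_
  refine kc_zero hφ hr ?_
  by_contra h
  rw [not_le] at h
  exact hy (hA (by rw [mem_closedBall, dist_eq_norm]; exact h.le))

lemma kratio_restrict {x z : E} {R r : ℝ} {φ : ℝ → ℝ} (hφ : Profile φ) (hr : 0 < r)
    (hA : closedBall z r ⊆ closedBall x R) :
    kratio m φ (V.weight.restrict (closedBall x R)) z r = kratio m φ V.weight z r := by
  unfold kratio; rw [integral_restrict hφ hr hA]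

lemma kratio_mono (hU : IsOpen U) (hst : V.IsStationary) {φ : ℝ → ℝ} (hφ : Profile φ) {x : E}
    {r₁ r₂ : ℝ} (h1 : 0 < r₁) (h12 : r₁ ≤ r₂) (hball : closedBall x r₂ ⊆ U) :
    kratio m φ V.weight x r₁ ≤ kratio m φ V.weight x r₂ := by
  obtain ⟨R, hR, hRU⟩ := exists_bigger hU hball (h1.le.trans h12)
  have hfin := V.finite_restrict hRU
  have hls := V.locStat hst hRU
  have := hls.kratio_mono hφ (x := x) h1 h12 (closedBall_subset_ball hR)
  rwa [kratio_restrict hφ h1 (closedBall_subset_closedBall (h12.trans hR.le)),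
    kratio_restrict hφ (h1.trans_le h12) (closedBall_subset_closedBall hR.le)] at this

lemma exists_closedBall (hU : IsOpen U) {x : E} (hx : x ∈ U) : ∃ R > 0, closedBall x R ⊆ U :=
  nhds_basis_closedBall.mem_iff.1 (hU.mem_nhds hx)

lemma tendsto_bratio (hU : IsOpen U) (hst : V.IsStationary) {x : E} (hx : x ∈ U) :
    Tendsto (bratio m V.weight x) (𝓝[>] 0) (𝓝 (om m * V.theta x)) := by
  obtain ⟨R, hR, hball⟩ := exists_closedBall hU hx
  have hfin := V.finite_restrict hball
  have hls := V.locStat hst hball
  have h1 := hls.tendsto_bratio (mem_ball_self hR)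
  rw [V.theta_restrict (mem_ball_self hR)] at h1
  refine h1.congr' ?_
  filter_upwards [eventually_ball_subset (x := x) (z := x) (mem_ball_self hR)] with r hr
  exact V.bratio_restrict (ball_subset_closedBall.trans (hr.trans ball_subset_closedBall))

lemma tendsto_kratio (hU : IsOpen U) (hst : V.IsStationary) {φ : ℝ → ℝ} (hφ : Profile φ) {x : E}
    (hx : x ∈ U) :
    Tendsto (kratio m φ V.weight x) (𝓝[>] 0) (𝓝 (om m * cphi m φ * V.theta x)) := by
  obtain ⟨R, hR, hball⟩ := exists_closedBall hU hx
  have hfin := V.finite_restrict hball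
  have hls := V.locStat hst hball
  have h1 := hls.tendsto_kratio hφ (mem_ball_self hR)
  rw [V.theta_restrict (mem_ball_self hR)] at h1
  refine h1.congr' ?_
  filter_upwards [eventually_ball_subset (x := x) (z := x) (mem_ball_self hR), self_mem_nhdsWithin] with r hr hr0
  exact kratio_restrict hφ (mem_Ioi.1 hr0) (hr.trans ball_subset_closedBall)

lemma theta_nonneg (hU : IsOpen U) (hst : V.IsStationary) {x : E} (hx : x ∈ U) :
    0 ≤ V.theta x := by
  obtain ⟨R, hR, hball⟩ := exists_closedBall hU hx
  have hfin := V.finite_restrict hball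
  have hls := V.locStat hst hball
  have h1 := hls.theta_nonneg (mem_ball_self hR)
  rwa [V.theta_restrict (mem_ball_self hR)] at h1

lemma le_bratio (hst : V.IsStationary) {x : E} {r : ℝ} (hr : 0 < r)
    (hball : closedBall x r ⊆ U) : om m * V.theta x ≤ bratio m V.weight x r := by
  have hfin := V.finite_restrict hball
  have hls := V.locStat hst hball
  have h1 := hls.le_bratio (x := x) hr subset_rfl
  rwa [V.theta_restrict (mem_ball_self hr), V.bratio_restrict ball_subset_closedBall] at h1

lemma le_ball (hst : V.IsStationary) {x : E} {r : ℝ} (hr : 0 < r)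
    (hball : closedBall x r ⊆ U) : om m * V.theta x * r ^ m ≤ V.weight.real (ball x r) := by
  have := le_bratio hst hr hball
  unfold bratio at this
  rwa [le_div_iff₀ (by positivity)] at this

lemma weight_closedBall_lt_top {x : E} {r : ℝ} (hball : closedBall x r ⊆ U) :
    V.weight (closedBall x r) < ⊤ := V.locFinite _ hball (isCompact_closedBall x r)

lemma le_closedBall (hst : V.IsStationary) {x : E} {r : ℝ} (hr : 0 < r)
    (hball : closedBall x r ⊆ U) : om m * V.theta x * r ^ m ≤ V.weight.real (closedBall x r) :=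
  (le_ball hst hr hball).trans (measureReal_mono ball_subset_closedBall
    (weight_closedBall_lt_top hball).ne)

lemma le_kratio (hU : IsOpen U) (hst : V.IsStationary) {φ : ℝ → ℝ} (hφ : Profile φ) {x : E}
    {r : ℝ} (hr : 0 < r) (hball : closedBall x r ⊆ U) :
    om m * cphi m φ * V.theta x ≤ kratio m φ V.weight x r := by
  have hx : x ∈ U := hball (mem_closedBall_self hr.le)
  refine le_of_tendsto (tendsto_kratio hU hst hφ hx) ?_
  have : Ioo 0 r ∈ 𝓝[>] (0:ℝ) := Ioo_mem_nhdsGT hr
  filter_upwards [this] with s hs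
  exact kratio_mono hU hst hφ hs.1 hs.2.le hball

/-- the density is at least one on the support -/
lemma one_le_theta (hU : IsOpen U) (hst : V.IsStationary) {x : E} (hx : x ∈ V.spt) :
    1 ≤ V.theta x := by
  obtain ⟨R, hR, hball⟩ := exists_closedBall hU hx.1
  have hfin := V.finite_restrict hball
  have hls := V.locStat hst hball
  have h1 := hls.one_le_theta V.densLow (V.mem_support hx (mem_ball_self hR)) (mem_ball_self hR)
  rwa [V.theta_restrict (mem_ball_self hR)] at h1

/-- the density vanishes off the support -/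
lemma theta_eq_zero (hU : IsOpen U) (hst : V.IsStationary) {x : E} (hx : x ∈ U)
    (hxs : x ∉ V.spt) : V.theta x = 0 := by
  have h1 : ¬ ∀ W ∈ 𝓝 x, 0 < V.weight W := fun h => hxs ⟨hx, h⟩
  push Not at h1
  obtain ⟨W, hW, hW0⟩ := h1
  obtain ⟨δ, hδ, hsub⟩ := Metric.mem_nhds_iff.1 hW
  have h2 := tendsto_bratio hU hst hx
  have h3 : Tendsto (bratio m V.weight x) (𝓝[>] 0) (𝓝 0) := by
    refine tendsto_const_nhds.congr' ?_
    filter_upwards [Ioo_mem_nhdsGT hδ] with r hr
    unfold bratio
    have : V.weight (ball x r) = 0 :=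
      measure_mono_null ((ball_subset_ball hr.2.le).trans hsub) (le_antisymm hW0 bot_le)
    rw [measureReal_def, this]; simp
  have h4 := tendsto_nhds_unique h2 h3
  exact (mul_eq_zero.1 h4).resolve_left (om_pos m).ne'

lemma mem_spt_iff (hU : IsOpen U) (hst : V.IsStationary) {x : E} (hx : x ∈ U) :
    x ∈ V.spt ↔ 1 ≤ V.theta x := by
  refine ⟨one_le_theta hU hst, fun h => ?_⟩
  by_contra hxs
  rw [theta_eq_zero hU hst hx hxs] at h
  linarith

lemma mem_spt_iff_pos (hU : IsOpen U) (hst : V.IsStationary) {x : E} (hx : x ∈ U) :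
    x ∈ V.spt ↔ 0 < V.theta x := by
  refine ⟨fun h => one_pos.trans_le (one_le_theta hU hst h), fun h => ?_⟩
  by_contra hxs
  rw [theta_eq_zero hU hst hx hxs] at h
  exact lt_irrefl _ h

/-- **upper semicontinuity** -/
lemma theta_lt_near (hU : IsOpen U) (hst : V.IsStationary) {x : E} (hx : x ∈ U) {c : ℝ}
    (hc : V.theta x < c) : ∀ᶠ z in 𝓝 x, V.theta z < c := by
  obtain ⟨R, hR, hball⟩ := exists_closedBall hU hx
  have hfin := V.finite_restrict hball
  have hls := V.locStat hst hball
  rw [← V.theta_restrict (mem_ball_self hR)] at hc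
  filter_upwards [hls.theta_lt_near (mem_ball_self hR) hc, ball_mem_nhds x hR] with z hz hzb
  rwa [V.theta_restrict hzb] at hz

lemma theta_usc (hU : IsOpen U) (hst : V.IsStationary) : UpperSemicontinuousOn V.theta U :=
  fun x hx c hc => (theta_lt_near hU hst hx hc).filter_mono nhdsWithin_le_nhds

lemma isOpen_theta_lt (hU : IsOpen U) (hst : V.IsStationary) (c : ℝ) :
    IsOpen {x ∈ U | V.theta x < c} := by
  rw [isOpen_iff_mem_nhds]
  rintro x ⟨hx, hc⟩
  filter_upwards [hU.mem_nhds hx, theta_lt_near hU hst hx hc] with z h1 h2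
  exact ⟨h1, h2⟩

/-- limits of points of density at least `c` have density at least `c` -/
lemma le_theta_of_tendsto (hU : IsOpen U) (hst : V.IsStationary) {x : E} (hx : x ∈ U) {c : ℝ}
    {u : ℕ → E} (hu : Tendsto u atTop (𝓝 x)) (hc : ∃ᶠ k in atTop, c ≤ V.theta (u k)) :
    c ≤ V.theta x := by
  by_contra hcon
  rw [not_le] at hcon
  have h1 := hu.eventually (theta_lt_near hU hst hx hcon)
  exact hc (h1.mono fun k hk => not_le.2 hk)

/-- the set of points of density at least `c` in a compact subset of `U` is compact -/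
lemma isCompact_theta_ge (hU : IsOpen U) (hst : V.IsStationary) {K : Set E} (hK : IsCompact K)
    (hKU : K ⊆ U) (c : ℝ) : IsCompact {x ∈ K | c ≤ V.theta x} := by
  have h1 : {x ∈ K | c ≤ V.theta x} = K \ {x ∈ U | V.theta x < c} := by
    ext x
    simp only [mem_setOf_eq, mem_diff, not_and, not_lt]
    exact ⟨fun h => ⟨h.1, fun _ => h.2⟩, fun h => ⟨h.1, h.2 (hKU h.1)⟩⟩
  rw [h1]
  exact hK.diff (isOpen_theta_lt hU hst c)

/-- uniform version of upper semicontinuity: near `x`, at all small scales, the smoothed mass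
ratios are at most `c > theta x` -/
lemma ratio_lt_near (hU : IsOpen U) (hst : V.IsStationary) {x : E} (hx : x ∈ U) {c : ℝ}
    (hc : V.theta x < c) :
    ∃ δ > 0, ball x δ ⊆ U ∧ ∀ z ∈ ball x δ, closedBall z δ ⊆ U ∧ ∀ s, 0 < s → s ≤ δ →
      kratio m prof V.weight z s < om m * cphi m prof * c := by
  obtain ⟨R, hR, hball⟩ := exists_closedBall hU hx
  have hfin := V.finite_restrict hball
  have hls := V.locStat hst hball
  rw [← V.theta_restrict (mem_ball_self hR)] at hc
  obtain ⟨δ, hδ, h1, h2⟩ := hls.ratio_lt_near (mem_ball_self hR) hc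
  refine ⟨δ, hδ, h1.trans (ball_subset_closedBall.trans hball), fun z hz => ?_⟩
  obtain ⟨h3, h4⟩ := h2 z hz
  refine ⟨h3.trans (ball_subset_closedBall.trans hball), fun s hs hsδ => ?_⟩
  have h5 := h4 s hs hsδ
  rw [cg_eq] at h5
  rwa [← kratio_restrict (V := V) prof_profile hs
    ((closedBall_subset_closedBall hsδ).trans (h3.trans ball_subset_closedBall))]

/-- the same for balls -/
lemma bratio_lt_near (hU : IsOpen U) (hst : V.IsStationary) {x : E} (hx : x ∈ U) {c : ℝ}
    (hc : V.theta x < c) :
    ∃ δ > 0, ball x δ ⊆ U ∧ ∀ z ∈ ball x δ, closedBall z δ ⊆ U ∧ ∀ s, 0 < s → s ≤ δ →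
      V.weight.real (closedBall z s) < om m * c * s ^ m := by
  obtain ⟨c', hc1, hc2⟩ := exists_between hc
  have hc0 : 0 < c := (theta_nonneg hU hst hx).trans_lt hc
  have hc'0 : 0 < c' := (theta_nonneg hU hst hx).trans_lt hc1
  obtain ⟨R, hR, hball⟩ := exists_closedBall hU hx
  have h1 := (tendsto_bratio hU hst hx).eventually
    (gt_mem_nhds (mul_lt_mul_of_pos_left hc1 (om_pos m)))
  have h3 : Ioo 0 R ∈ 𝓝[>] (0:ℝ) := Ioo_mem_nhdsGT hR
  obtain ⟨s0, hs0, hs0'⟩ := (h1.and h3).exists
  -- radius slightly smaller than `s0`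
  have hs0pos := hs0'.1
  have hlim : Tendsto (fun t : ℝ => om m * c' * s0 ^ m / t ^ m) (𝓝[<] s0)
      (𝓝 (om m * c' * s0 ^ m / s0 ^ m)) := by
    refine Tendsto.mono_left ?_ nhdsWithin_le_nhds
    have : ContinuousAt (fun t : ℝ => om m * c' * s0 ^ m / t ^ m) s0 :=
      continuousAt_const.div (by fun_prop) (by positivity)
    exact this
  rw [mul_div_cancel_right₀ _ (by positivity : (s0 ^ m : ℝ) ≠ 0)] at hlim
  have h4 := hlim.eventually (gt_mem_nhds (mul_lt_mul_of_pos_left hc2 (om_pos m)))
  have h5 : Ioo 0 s0 ∈ 𝓝[<] s0 := Ioo_mem_nhdsLT hs0pos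
  obtain ⟨t, ht, ht'⟩ := (h4.and h5).exists
  -- all points within `(s0 - t)` of `x`
  refine ⟨min (s0 - t) (t / 2), lt_min (by linarith [ht'.2]) (by linarith [ht'.1]), ?_, ?_⟩
  · refine (ball_subset_ball ?_).trans (ball_subset_closedBall.trans hball)
    calc min (s0 - t) (t / 2) ≤ s0 - t := min_le_left _ _
      _ ≤ R := by linarith [ht'.1, hs0'.2]
  intro z hz
  have hz1 : dist z x < s0 - t := lt_of_lt_of_le (mem_ball.1 hz) (min_le_left _ _)
  have hsub : closedBall z t ⊆ closedBall x s0 := closedBall_subset_closedBall' (by linarith)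
  have hsub1 : ball z t ⊆ ball x s0 := ball_subset_ball' (by linarith)
  have hsubU : closedBall z t ⊆ U :=
    hsub.trans ((closedBall_subset_closedBall hs0'.2.le).trans hball)
  have htt : min (s0 - t) (t / 2) ≤ t := (min_le_right _ _).trans (by linarith [ht'.1])
  refine ⟨(closedBall_subset_closedBall htt).trans hsubU, fun s hs hs2 => ?_⟩
  have hst' : s < t := lt_of_le_of_lt (hs2.trans (min_le_right _ _)) (by linarith [ht'.1])
  -- `closedBall z s` mass `≤ s^m * bratio z t`
  have hfin := V.finite_restrict hsubU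
  have hls := V.locStat hst hsubU
  have h6 := hls.cbratio_le (x := z) hs hst' subset_rfl
  rw [V.real_restrict (closedBall_subset_closedBall hst'.le),
    V.bratio_restrict ball_subset_closedBall] at h6
  have h7 : bratio m V.weight z t < om m * c := by
    calc bratio m V.weight z t ≤ V.weight.real (ball x s0) / t ^ m := by
          unfold bratio
          have : V.weight.real (ball z t) ≤ V.weight.real (ball x s0) :=
            measureReal_mono hsub1 (ne_top_of_le_ne_top (weight_closedBall_lt_top (V := V)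
              ((closedBall_subset_closedBall hs0'.2.le).trans hball)).ne
              (measure_mono ball_subset_closedBall))
          have := ht'.1
          gcongr
      _ = bratio m V.weight x s0 * s0 ^ m / t ^ m := by
          unfold bratio; rw [div_mul_cancel₀ _ (by positivity : (s0 ^ m : ℝ) ≠ 0)]
      _ ≤ om m * c' * s0 ^ m / t ^ m := by
          have := ht'.1
          have := hs0.le
          gcongr
      _ < om m * c := ht
  have h8 := h6.trans_lt h7
  rwa [div_lt_iff₀ (by positivity)] at h8

/-- **the density equals the multiplicity almost everywhere** -/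
lemma theta_eq_mult (hU : IsOpen U) (hst : V.IsStationary) :
    ∀ᵐ y ∂V.weight, V.theta y = V.mult y := by
  filter_upwards [V.tangent_spec, V.ae_mem_carrier] with y hy hyc
  have hyU := V.carrier_subset hyc
  obtain ⟨hfin, hlim⟩ := hy
  have hcont : Continuous fun y : E => prof (‖y‖ ^ 2) := continuous_prof.comp (by fun_prop)
  have hsupp : HasCompactSupport fun y : E => prof (‖y‖ ^ 2) := by
    refine HasCompactSupport.intro (isCompact_closedBall (0 : E) 1) ?_
    intro y hy
    rw [mem_closedBall, dist_zero_right, not_le] at hy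
    exact prof_of_one_le (by nlinarith)
  have h1 := hlim _ hcont hsupp
  rw [integral_plane hfin] at h1
  have h2 := tendsto_kratio hU hst prof_profile hyU
  rw [← cg_eq] at h2
  have h3 : Tendsto (kratio m prof V.weight y) (𝓝[>] 0) (𝓝 (V.mult y * cg m)) := by
    refine h1.congr' ?_
    filter_upwards [self_mem_nhdsWithin] with r hr
    unfold kratio
    congr 1
    refine integral_congr_ae (Eventually.of_forall fun z => ?_)
    show prof (‖r⁻¹ • (z - y)‖ ^ 2) = kc prof y r z
    unfold kc
    rw [norm_smul, norm_inv, Real.norm_of_nonneg (mem_Ioi.1 hr).le, mul_pow, inv_pow]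
    congr 1
    ring
  have h4 := tendsto_nhds_unique h2 h3
  have h5 := cg_pos m
  have h6 : cg m * V.theta y = cg m * V.mult y := by rw [h4]; ring
  exact mul_left_cancel₀ h5.ne' h6

/-- weight-null subsets of the support are `H^m`-null -/
lemma hausdorff_null_spt (hU : IsOpen U) (hst : V.IsStationary) {A : Set E} (hA : A ⊆ V.spt)
    (h0 : V.weight A = 0) : μH[m] A = 0 := by
  refine measure_null_of_locally_null _ fun x hx => ?_
  obtain ⟨R, hR, hball⟩ := exists_closedBall hU (hA hx).1
  have hfin := V.finite_restrict hball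
  refine ⟨A ∩ ball x R, inter_mem self_mem_nhdsWithin
    (mem_nhdsWithin_of_mem_nhds (ball_mem_nhds _ hR)), ?_⟩
  refine hausdorff_null_of_density (V.weight.restrict (closedBall x R)) (om_pos m) ?_ ?_
  · exact le_antisymm ((Measure.restrict_apply_le _ _).trans
      ((measure_mono inter_subset_left).trans h0.le)) bot_le
  · rintro z ⟨hzA, hzb⟩
    have hpos : 0 < R - dist z x := by rw [mem_ball] at hzb; linarith
    refine ⟨R - dist z x, hpos, fun r hr hr2 => ?_⟩
    have hsub : closedBall z r ⊆ closedBall x R := closedBall_subset_closedBall' (by linarith)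
    rw [V.real_restrict hsub]
    have h1 := le_closedBall hst hr (hsub.trans hball)
    have h2 := one_le_theta hU hst (hA hzA)
    refine le_trans ?_ h1
    have h3 : om m * 1 * r ^ m ≤ om m * V.theta z * r ^ m := by
      have := (om_pos m).le
      gcongr
    simpa using h3

/-- almost every point for the weight is in the support -/
lemma ae_mem_spt (V : IntegralVarifold m U) : ∀ᵐ y ∂V.weight, y ∈ V.spt := by
  have h1 : V.weight (U \ V.spt) = 0 := weight_diff_spt_null subset_rfl
  have h2 : ∀ᵐ y ∂V.weight, y ∉ U \ V.spt := measure_eq_zero_iff_ae_notMem.1 h1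
  filter_upwards [h2, V.ae_mem_carrier] with y hy hyc
  by_contra hys
  exact hy ⟨V.carrier_subset hyc, hys⟩

/-- a property that holds a.e. for the weight holds at `H^m`-a.e. point of the support -/
lemma hausdorff_ae_of_weight_ae (hU : IsOpen U) (hst : V.IsStationary) {p : E → Prop}
    (hp : ∀ᵐ y ∂V.weight, p y) : μH[m] {y ∈ V.spt | ¬ p y} = 0 := by
  refine hausdorff_null_spt hU hst (fun y hy => hy.1) ?_
  exact measure_mono_null (fun y hy => hy.2) (ae_iff.1 hp)

/-- good points: natural density `q ≥ 1`, approximate tangent plane with multiplicity `q`,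
blow-up plane -/
structure IsGood (V : IntegralVarifold m U) (y : E) : Prop where
  spt : y ∈ V.spt
  carrier : y ∈ V.carrier
  theta_eq : V.theta y = V.mult y
  mult_pos : 1 ≤ V.mult y
  tangent : IsApproxTangent m V.weight y (V.mult y) (V.tangent y)
  blowup : V.IsBlowupPlane y (V.tangent y)

lemma ae_good (hU : IsOpen U) (hst : V.IsStationary) : ∀ᵐ y ∂V.weight, V.IsGood y := by
  filter_upwards [V.tangent_spec, V.ae_mem_carrier, V.theta_eq_mult hU hst,
    V.ae_blowup hU hst] with y h1 h2 h3 h4
  exact ⟨h4.1, h2, h3, V.mult_pos y h2, h1, h4.2⟩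

lemma hausdorff_good (hU : IsOpen U) (hst : V.IsStationary) :
    μH[m] {y ∈ V.spt | ¬ V.IsGood y} = 0 := hausdorff_ae_of_weight_ae hU hst (ae_good hU hst)

/-- **minimal density**: a subset `A` of the support with `H^m(A) ≠ 0` has a least density `Q`
which occurs on a non-null part; the part of `A` of density `< Q` is null. -/
lemma exists_min_density (hU : IsOpen U) (hst : V.IsStationary) {A : Set E} (hA : A ⊆ V.spt)
    (h0 : μH[m] A ≠ 0) :
    ∃ Q : ℕ, 1 ≤ Q ∧ μH[m] {y ∈ A | V.IsGood y ∧ V.theta y = Q} ≠ 0 ∧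
      μH[m] {y ∈ A | V.theta y < Q} = 0 := by
  classical
  have hex : ∃ Q : ℕ, μH[m] {y ∈ A | V.IsGood y ∧ V.theta y = Q} ≠ 0 := by
    by_contra hcon
    push Not at hcon
    refine h0 (measure_mono_null (t := {y ∈ V.spt | ¬ V.IsGood y} ∪
      ⋃ Q : ℕ, {y ∈ A | V.IsGood y ∧ V.theta y = Q}) (fun y hy => ?_)
      (measure_union_null (hausdorff_good hU hst) (measure_iUnion_null hcon)))
    by_cases hg : V.IsGood y
    · exact Or.inr (mem_iUnion.2 ⟨V.mult y, hy, hg, hg.theta_eq⟩)
    · exact Or.inl ⟨hA hy, hg⟩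
  have hspec := Nat.find_spec hex
  refine ⟨Nat.find hex, ?_, hspec, ?_⟩
  · rw [Nat.one_le_iff_ne_zero]
    intro hQ
    rw [hQ] at hspec
    refine hspec ?_
    have : {y ∈ A | V.IsGood y ∧ V.theta y = ((0:ℕ) : ℝ)} = ∅ := by
      ext y
      simp only [mem_setOf_eq, mem_empty_iff_false, iff_false, not_and]
      intro hy hg h
      have := one_le_theta hU hst (hA hy)
      rw [h] at this
      norm_num at this
    rw [this]; simp
  · refine measure_mono_null (t := {y ∈ V.spt | ¬ V.IsGood y} ∪
      ⋃ Q : {Q : ℕ // Q < Nat.find hex}, {y ∈ A | V.IsGood y ∧ V.theta y = (Q : ℕ)})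
      (fun y hy => ?_) (measure_union_null (hausdorff_good hU hst)
        (measure_iUnion_null fun Q => not_not.1 (Nat.find_min hex Q.2)))
    by_cases hg : V.IsGood y
    · have h1 : (V.mult y : ℝ) < Nat.find hex := by rw [← hg.theta_eq]; exact hy.2
      exact Or.inr (mem_iUnion.2 ⟨⟨V.mult y, by exact_mod_cast h1⟩, hy.1, hg, hg.theta_eq⟩)
    · exact Or.inl ⟨hA hy.1, hg⟩

end IntegralVarifold

end Vale.Agent.P214
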