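import Vale.Agent.P214.MU.Ball

/-!
# P214, block MONO-UP: the density `theta`

`om m` = `H^m` of the unit ball of `R^m` (unnormalised Hausdorff measure),
`theta m ν x = lim_{r → 0+} ν (B_r(x)) / (om m * r ^ m)`.
-/

open Set Filter Topology MeasureTheory Metric
open scoped RealInnerProductSpace ENNReal

set_option linter.all false

namespace Vale.Agent.P214.MU

instance isAddHaar_H (m : ℕ) :
    (μH[m] : Measure (EuclideanSpace ℝ (Fin m))).IsAddHaarMeasure := by
  have h1 : ((Module.finrank ℝ (EuclideanSpace ℝ (Fin m)) : ℕ) : ℝ) = m := by simp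
  rw [← h1]
  infer_instance

/-- `H^m` of the unit ball of `R^m` -/
noncomputable def om (m : ℕ) : ℝ := (μH[m] : Measure (EuclideanSpace ℝ (Fin m))).real (ball 0 1)

lemma om_pos (m : ℕ) : 0 < om m := by
  unfold om
  rw [measureReal_def, ENNReal.toReal_pos_iff]
  exact ⟨measure_ball_pos _ _ one_pos, measure_ball_lt_top⟩

lemma om_ball (m : ℕ) (x : EuclideanSpace ℝ (Fin m)) {r : ℝ} (hr : 0 < r) :
    (μH[m] : Measure (EuclideanSpace ℝ (Fin m))).real (ball x r) = om m * r ^ m := by
  unfold om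
  rw [measureReal_def, Measure.addHaar_ball_of_pos _ x hr, ENNReal.toReal_mul,
    ENNReal.toReal_ofReal (by positivity), measureReal_def]
  simp [mul_comm]

/-- the layer cake constant of a profile -/
noncomputable def cphi (m : ℕ) (φ : ℝ → ℝ) : ℝ := ∫ s in Ioc (0:ℝ) 1, (-deriv φ s) * (√s) ^ m

variable {φ : ℝ → ℝ}

lemma cphi_nonneg (hφ : Profile φ) (m : ℕ) : 0 ≤ cphi m φ := by
  refine setIntegral_nonneg measurableSet_Ioc fun s hs => ?_
  have := hφ.anti s hs.1.le
  have h1 : 0 ≤ -deriv φ s := by linarith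
  positivity

lemma plane_integral (hφ : Profile φ) (m : ℕ) :
    ∫ y : EuclideanSpace ℝ (Fin m), φ (‖y‖ ^ 2) ∂μH[m] = om m * cphi m φ := by
  set μ : Measure (EuclideanSpace ℝ (Fin m)) := μH[m] with hμ
  haveI : IsFiniteMeasure (μ.restrict (closedBall (0 : EuclideanSpace ℝ (Fin m)) 1)) :=
    ⟨by rw [Measure.restrict_apply_univ]; exact measure_closedBall_lt_top⟩
  have h1 := layer_cake (ν := μ.restrict (closedBall (0 : EuclideanSpace ℝ (Fin m)) 1))
    (x := 0) hφ (r := 1) one_pos
  have h2 : ∫ y, kc φ (0 : EuclideanSpace ℝ (Fin m)) 1 y ∂(μ.restrict (closedBall 0 1))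
      = ∫ y : EuclideanSpace ℝ (Fin m), φ (‖y‖ ^ 2) ∂μ := by
    rw [setIntegral_eq_integral_of_forall_compl_eq_zero]
    · refine integral_congr_ae (Eventually.of_forall fun y => ?_)
      unfold kc; simp
    · intro y hy
      rw [mem_closedBall, dist_eq_norm, not_le] at hy
      exact kc_zero hφ one_pos hy.le
  rw [← h2, h1]
  unfold cphi
  rw [← integral_const_mul]
  refine setIntegral_congr_fun measurableSet_Ioc fun s hs => ?_
  have h3 : (μ.restrict (closedBall (0 : EuclideanSpace ℝ (Fin m)) 1)).real (ball 0 (1 * √s))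
      = om m * (√s) ^ m := by
    rw [measureReal_def, Measure.restrict_apply measurableSet_ball,
      inter_eq_left.2, ← measureReal_def, one_mul]
    · exact om_ball m 0 (Real.sqrt_pos.2 hs.1)
    · refine (ball_subset_closedBall).trans (closedBall_subset_closedBall ?_)
      rw [one_mul]
      exact Real.sqrt_le_one.2 hs.2
  rw [h3]; ring

lemma cg_eq (m : ℕ) : cg m = om m * cphi m prof := plane_integral prof_profile m

lemma cphi_prof_pos (m : ℕ) : 0 < cphi m prof := by
  have h1 := cg_pos m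
  rw [cg_eq] at h1
  exact (mul_pos_iff_of_pos_left (om_pos m)).1 h1

variable {E : Type*} [NormedAddCommGroup E] [InnerProductSpace ℝ E] [FiniteDimensional ℝ E]
variable [MeasurableSpace E] [BorelSpace E]
variable {x y : E} {r : ℝ} {m : ℕ} {O : Set E} {ν : Measure E} {P : E → E →L[ℝ] E}

/-- the density -/
noncomputable def theta (m : ℕ) (ν : Measure E) (x : E) : ℝ :=
  limUnder (𝓝[>] (0:ℝ)) fun r => bratio m ν x r / om m

lemma _root_.Vale.Agent.P214.LocStat.exists_ball (h : LocStat m O ν P) (hx : x ∈ O) :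
    ∃ R > 0, closedBall x R ⊆ O :=
  nhds_basis_closedBall.mem_iff.1 (h.isOpen.mem_nhds hx)

/-- existence of the density -/
lemma _root_.Vale.Agent.P214.LocStat.tendsto_bratio [IsFiniteMeasure ν] (h : LocStat m O ν P)
    (hx : x ∈ O) : Tendsto (bratio m ν x) (𝓝[>] 0) (𝓝 (om m * theta m ν x)) := by
  obtain ⟨R, hR, hball⟩ := h.exists_ball hx
  have hmono : MonotoneOn (bratio m ν x) (Ioo 0 R) := fun a ha b hb hab =>
    h.bratio_mono ha.1 hab ((closedBall_subset_closedBall hb.2.le).trans hball)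
  have hne : (Ioo (0:ℝ) R).Nonempty := nonempty_Ioo.2 hR
  have hbdd : BddBelow (bratio m ν x '' Ioo 0 R) :=
    ⟨0, by rintro _ ⟨s, hs, rfl⟩; exact bratio_nonneg hs.1.le⟩
  have h1 := hmono.tendsto_nhdsWithin_Ioo_right hne hbdd
  have h2 := h1.div_const (om m)
  have h3 : theta m ν x = sInf (bratio m ν x '' Ioo 0 R) / om m := h2.limUnder_eq
  rw [h3, mul_div_cancel₀ _ (om_pos m).ne']
  exact h1

lemma _root_.Vale.Agent.P214.LocStat.le_bratio [IsFiniteMeasure ν] (h : LocStat m O ν P)
    (hr : 0 < r) (hball : ball x r ⊆ O) : om m * theta m ν x ≤ bratio m ν x r := by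
  have hx : x ∈ O := hball (mem_ball_self hr)
  refine le_of_tendsto (h.tendsto_bratio hx) ?_
  have : Ioo 0 r ∈ 𝓝[>] (0:ℝ) := Ioo_mem_nhdsGT hr
  filter_upwards [this] with s hs
  exact h.bratio_mono' hs.1 hs.2 hball

lemma _root_.Vale.Agent.P214.LocStat.le_ball [IsFiniteMeasure ν] (h : LocStat m O ν P)
    (hr : 0 < r) (hball : ball x r ⊆ O) : om m * theta m ν x * r ^ m ≤ ν.real (ball x r) := by
  have := h.le_bratio hr hball
  unfold bratio at this
  rwa [le_div_iff₀ (by positivity)] at this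

lemma _root_.Vale.Agent.P214.LocStat.theta_nonneg [IsFiniteMeasure ν] (h : LocStat m O ν P)
    (hx : x ∈ O) : 0 ≤ theta m ν x := by
  have h1 : 0 ≤ om m * theta m ν x := by
    refine ge_of_tendsto (h.tendsto_bratio hx) ?_
    filter_upwards [self_mem_nhdsWithin] with s hs
    exact bratio_nonneg (mem_Ioi.1 hs).le
  exact nonneg_of_mul_nonneg_right h1 (om_pos m)

/-- kernel ratios through ball ratios -/
lemma kratio_eq [IsFiniteMeasure ν] (hφ : Profile φ) (hr : 0 < r) :
    kratio m φ ν x r = ∫ s in Ioc (0:ℝ) 1, (-deriv φ s) * (√s) ^ m * bratio m ν x (r * √s) := by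
  unfold kratio
  rw [layer_cake hφ hr, ← integral_div]
  refine setIntegral_congr_fun measurableSet_Ioc fun s hs => ?_
  have hs0 : 0 < √s := Real.sqrt_pos.2 hs.1
  simp only [bratio, mul_pow]
  field_simp

/-- the density computed with an arbitrary kernel -/
lemma _root_.Vale.Agent.P214.LocStat.tendsto_kratio [IsFiniteMeasure ν] (h : LocStat m O ν P)
    (hφ : Profile φ) (hx : x ∈ O) :
    Tendsto (kratio m φ ν x) (𝓝[>] 0) (𝓝 (om m * cphi m φ * theta m ν x)) := by
  obtain ⟨R, hR, hball⟩ := h.exists_ball hx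
  obtain ⟨C, hC0, hC⟩ := hφ.exists_bound
  have h1 : Tendsto (fun r => ∫ s in Ioc (0:ℝ) 1, (-deriv φ s) * (√s) ^ m *
      bratio m ν x (r * √s)) (𝓝[>] 0)
      (𝓝 (∫ s in Ioc (0:ℝ) 1, (-deriv φ s) * (√s) ^ m * (om m * theta m ν x))) := by
    haveI : IsFiniteMeasure (volume.restrict (Ioc (0:ℝ) 1)) := ⟨by simp⟩
    refine tendsto_integral_filter_of_dominated_convergence
      (fun _ => C * 1 * bratio m ν x R) ?_ ?_ (integrable_const _) ?_
    · have : Ioo 0 R ∈ 𝓝[>] (0:ℝ) := Ioo_mem_nhdsGT hR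
      filter_upwards [this] with r hr
      -- measurability: ball masses are monotone in the radius
      have hm : Monotone fun t : ℝ => ν.real (ball x t) := fun a b hab =>
        measureReal_mono (ball_subset_ball hab)
      have h2 : Measurable fun s : ℝ => bratio m ν x (r * √s) := by
        unfold bratio
        refine Measurable.div (hm.measurable.comp (by fun_prop)) (by fun_prop)
      exact (((hφ.continuous_deriv.measurable.neg).mul (by fun_prop)).mul h2).aestronglyMeasurable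
    · have : Ioo 0 R ∈ 𝓝[>] (0:ℝ) := Ioo_mem_nhdsGT hR
      filter_upwards [this] with r hr
      refine (ae_restrict_iff' measurableSet_Ioc).2 (Eventually.of_forall fun s hs => ?_)
      have hs0 : 0 < √s := Real.sqrt_pos.2 hs.1
      have hs1 : √s ≤ 1 := Real.sqrt_le_one.2 hs.2
      have h3 : r * √s ≤ R := by nlinarith [hr.1, hr.2]
      have h4 : 0 < r * √s := mul_pos hr.1 hs0
      have h5 : bratio m ν x (r * √s) ≤ bratio m ν x R := h.bratio_mono h4 h3 hball
      have h6 : 0 ≤ bratio m ν x (r * √s) := bratio_nonneg h4.le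
      rw [norm_mul, norm_mul, norm_neg, Real.norm_of_nonneg h6,
        Real.norm_of_nonneg (by positivity : (0:ℝ) ≤ √s ^ m)]
      have h7 : ‖deriv φ s‖ ≤ C := hC s hs.1.le
      have h8 : √s ^ m ≤ 1 := pow_le_one₀ hs0.le hs1
      gcongr
    · refine (ae_restrict_iff' measurableSet_Ioc).2 (Eventually.of_forall fun s hs => ?_)
      refine Tendsto.const_mul _ ?_
      have hs0 : 0 < √s := Real.sqrt_pos.2 hs.1
      refine (h.tendsto_bratio hx).comp ?_
      refine tendsto_nhdsWithin_iff.2 ⟨?_, ?_⟩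
      · have : Tendsto (fun r : ℝ => r * √s) (𝓝 0) (𝓝 (0 * √s)) := tendsto_id.mul_const _
        rw [zero_mul] at this
        exact this.mono_left nhdsWithin_le_nhds
      · filter_upwards [self_mem_nhdsWithin] with r hr
        exact mul_pos (mem_Ioi.1 hr) hs0
  have h2 : ∫ s in Ioc (0:ℝ) 1, (-deriv φ s) * (√s) ^ m * (om m * theta m ν x)
      = om m * cphi m φ * theta m ν x := by
    rw [integral_mul_const]
    unfold cphi; ring
  rw [h2] at h1
  refine h1.congr' ?_
  filter_upwards [self_mem_nhdsWithin] with r hr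
  exact (kratio_eq hφ (mem_Ioi.1 hr)).symm

lemma _root_.Vale.Agent.P214.LocStat.le_kratio [IsFiniteMeasure ν] (h : LocStat m O ν P)
    (hφ : Profile φ) (hr : 0 < r) (hball : closedBall x r ⊆ O) :
    om m * cphi m φ * theta m ν x ≤ kratio m φ ν x r := by
  have hx : x ∈ O := hball (mem_closedBall_self hr.le)
  refine le_of_tendsto (h.tendsto_kratio hφ hx) ?_
  have : Ioo 0 r ∈ 𝓝[>] (0:ℝ) := Ioo_mem_nhdsGT hr
  filter_upwards [this] with s hs
  exact h.kratio_mono hφ hs.1 hs.2.le hball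

lemma _root_.Vale.Agent.P214.LocStat.tendsto_ratio [IsFiniteMeasure ν] (h : LocStat m O ν P)
    (hx : x ∈ O) : Tendsto (ratio m ν x) (𝓝[>] 0) (𝓝 (cg m * theta m ν x)) := by
  rw [cg_eq]; exact h.tendsto_kratio prof_profile hx

lemma _root_.Vale.Agent.P214.LocStat.le_ratio [IsFiniteMeasure ν] (h : LocStat m O ν P)
    (hr : 0 < r) (hball : closedBall x r ⊆ O) :
    cg m * theta m ν x ≤ ratio m ν x r := by
  rw [cg_eq]; exact h.le_kratio prof_profile hr hball

/-- density at least one at support points -/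
lemma _root_.Vale.Agent.P214.LocStat.one_le_theta [IsFiniteMeasure ν] (h : LocStat m O ν P)
    (hd : DensLow m O ν (cg m)) (hx : x ∈ ν.support) (hxO : x ∈ O) : 1 ≤ theta m ν x := by
  obtain ⟨R, hR, hball⟩ := h.exists_ball hxO
  have h1 : cg m ≤ cg m * theta m ν x := by
    refine ge_of_tendsto (h.tendsto_ratio hxO) ?_
    have : Ioo 0 R ∈ 𝓝[>] (0:ℝ) := Ioo_mem_nhdsGT hR
    filter_upwards [this] with s hs
    exact h.ratio_ge hd hx hs.1 ((closedBall_subset_closedBall hs.2.le).trans hball)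
  have h2 := cg_pos m
  by_contra hcon
  rw [not_le] at hcon
  nlinarith

lemma continuous_ratio [IsFiniteMeasure ν] (r : ℝ) : Continuous fun x : E => ratio m ν x r := by
  unfold ratio; exact (continuous_cut_integral r).div_const _

/-- quantitative upper semicontinuity: near `x` and at small scales all mass ratios are at most
`theta x + ε` -/
lemma _root_.Vale.Agent.P214.LocStat.ratio_lt_near [IsFiniteMeasure ν] (h : LocStat m O ν P)
    (hx : x ∈ O) {c : ℝ} (hc : theta m ν x < c) :
    ∃ δ > 0, ball x δ ⊆ O ∧ ∀ z ∈ ball x δ, closedBall z δ ⊆ O ∧ ∀ s, 0 < s → s ≤ δ →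
      ratio m ν z s < cg m * c := by
  obtain ⟨R, hR, hball⟩ := h.exists_ball hx
  have h1 : cg m * theta m ν x < cg m * c := mul_lt_mul_of_pos_left hc (cg_pos m)
  have h2 := (h.tendsto_ratio hx).eventually (gt_mem_nhds h1)
  have h3 : Ioo 0 R ∈ 𝓝[>] (0:ℝ) := Ioo_mem_nhdsGT hR
  obtain ⟨s0, hs0, hs0'⟩ := (h2.and h3).exists
  have h4 : {z | ratio m ν z s0 < cg m * c} ∈ 𝓝 x :=
    (isOpen_lt (continuous_ratio s0) continuous_const).mem_nhds hs0
  obtain ⟨δ1, hδ1, hδ1'⟩ := Metric.mem_nhds_iff.1 h4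
  refine ⟨min (min δ1 (R - s0)) s0, lt_min (lt_min hδ1 (by linarith [hs0'.2])) hs0'.1, ?_, ?_⟩
  · refine (ball_subset_ball ?_).trans (ball_subset_closedBall.trans hball)
    calc min (min δ1 (R - s0)) s0 ≤ R - s0 := (min_le_left _ _).trans (min_le_right _ _)
      _ ≤ R := by linarith [hs0'.1]
  · intro z hz
    have hz1 : dist z x < δ1 := lt_of_lt_of_le (mem_ball.1 hz)
      ((min_le_left _ _).trans (min_le_left _ _))
    have hz2 : dist z x < R - s0 := lt_of_lt_of_le (mem_ball.1 hz)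
      ((min_le_left _ _).trans (min_le_right _ _))
    have hsub : closedBall z s0 ⊆ O := by
      refine (closedBall_subset_closedBall' ?_).trans hball
      linarith
    refine ⟨(closedBall_subset_closedBall (min_le_right _ _)).trans hsub, fun s hs hs2 => ?_⟩
    have hs3 : s ≤ s0 := hs2.trans (min_le_right _ _)
    exact (h.ratio_mono hs hs3 hsub).trans_lt (hδ1' hz1)

lemma _root_.Vale.Agent.P214.LocStat.theta_lt_near [IsFiniteMeasure ν] (h : LocStat m O ν P)
    (hx : x ∈ O) {c : ℝ} (hc : theta m ν x < c) : ∀ᶠ z in 𝓝 x, theta m ν z < c := by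
  obtain ⟨c', hc1, hc2⟩ := exists_between hc
  obtain ⟨δ, hδ, -, hz⟩ := h.ratio_lt_near hx hc1
  filter_upwards [ball_mem_nhds x hδ] with z hz'
  obtain ⟨h1, h2⟩ := hz z hz'
  have h3 := h2 δ hδ le_rfl
  have h4 := (h.le_ratio hδ h1).trans h3.le
  have h5 := cg_pos m
  have h6 : theta m ν z ≤ c' := le_of_mul_le_mul_left h4 h5
  linarith

/-- upper semicontinuity of the density -/
lemma _root_.Vale.Agent.P214.LocStat.theta_usc [IsFiniteMeasure ν] (h : LocStat m O ν P) :
    UpperSemicontinuousOn (theta m ν) O := fun x hx c hc =>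
  (h.theta_lt_near hx hc).filter_mono nhdsWithin_le_nhds

lemma _root_.Vale.Agent.P214.LocStat.isOpen_theta_lt [IsFiniteMeasure ν] (h : LocStat m O ν P)
    (c : ℝ) : IsOpen {x ∈ O | theta m ν x < c} := by
  rw [isOpen_iff_mem_nhds]
  rintro x ⟨hx, hc⟩
  filter_upwards [h.isOpen.mem_nhds hx, h.theta_lt_near hx hc] with z h1 h2
  exact ⟨h1, h2⟩

end Vale.Agent.P214.MU
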