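import Vale.Agent.P214.MU.Mono
import Mathlib.Analysis.SpecialFunctions.SmoothTransition
import Mathlib.MeasureTheory.Integral.Prod
import Mathlib.MeasureTheory.Integral.IntervalIntegral.FundThmCalculus
import Mathlib.MeasureTheory.Measure.Lebesgue.EqHaar

/-!
# P214, block MONO-UP: balls, layer cake, density
-/

open Set Filter Topology MeasureTheory Metric
open scoped RealInnerProductSpace ENNReal

set_option linter.all false

namespace Vale.Agent.P214.MU

variable {E : Type*} [NormedAddCommGroup E] [InnerProductSpace ℝ E] [FiniteDimensional ℝ E]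

/-- smooth profiles increasing to the indicator of `[0,1)` -/
noncomputable def stp (k : ℕ) (s : ℝ) : ℝ := Real.smoothTransition (((k : ℝ) + 1) * (1 - s))

lemma stp_profile (k : ℕ) : Profile (stp k) where
  smooth := by
    have h1 : ContDiff ℝ 1 fun s : ℝ => ((k : ℝ) + 1) * (1 - s) := by fun_prop
    exact (Real.smoothTransition.contDiff (n := 1)).comp h1
  zero := fun s hs => Real.smoothTransition.zero_of_nonpos (by
    have : (0:ℝ) ≤ (k : ℝ) + 1 := by positivity
    nlinarith)
  anti := fun s _ => by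
    have : Antitone (stp k) := by
      intro a b hab
      refine Real.smoothTransition.monotone ?_
      have : (0:ℝ) ≤ (k : ℝ) + 1 := by positivity
      nlinarith
    exact this.deriv_nonpos

lemma stp_le_one (k : ℕ) (s : ℝ) : stp k s ≤ 1 := Real.smoothTransition.le_one _

lemma stp_nonneg (k : ℕ) (s : ℝ) : 0 ≤ stp k s := Real.smoothTransition.nonneg _

lemma tendsto_stp {s : ℝ} (hs : s < 1) : Tendsto (fun k => stp k s) atTop (𝓝 1) := by
  refine tendsto_const_nhds.congr' ?_
  obtain ⟨n, hn⟩ := exists_nat_ge (1 / (1 - s))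
  filter_upwards [eventually_ge_atTop n] with k hk
  refine (Real.smoothTransition.one_of_one_le ?_).symm
  have h1 : 0 < 1 - s := by linarith
  have h2 : (n : ℝ) ≤ k := by exact_mod_cast hk
  calc (1:ℝ) = 1 / (1 - s) * (1 - s) := by field_simp
    _ ≤ ((k : ℝ) + 1) * (1 - s) := by gcongr; linarith

variable {φ : ℝ → ℝ} {x y : E} {r : ℝ}
variable [MeasurableSpace E] [BorelSpace E]
variable {m : ℕ} {O : Set E} {ν : Measure E} {P : E → E →L[ℝ] E}

lemma tendsto_kc_stp [IsFiniteMeasure ν] (hr : 0 < r) :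
    Tendsto (fun k => ∫ y, kc (stp k) x r y ∂ν) atTop (𝓝 (ν.real (ball x r))) := by
  have h1 : ν.real (ball x r) = ∫ y, (ball x r).indicator (fun _ => (1:ℝ)) y ∂ν := by
    rw [integral_indicator measurableSet_ball]; simp
  rw [h1]
  refine tendsto_integral_of_dominated_convergence (fun _ => (1:ℝ)) ?_ (integrable_const _) ?_ ?_
  · exact fun k => (continuous_kc (stp_profile k) x r).aestronglyMeasurable
  · refine fun k => Eventually.of_forall fun y => ?_
    rw [Real.norm_of_nonneg (kc_nonneg (stp_profile k) x r y)]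
    exact stp_le_one k _
  · refine Eventually.of_forall fun y => ?_
    by_cases hy : y ∈ ball x r
    · rw [indicator_of_mem hy]
      refine tendsto_stp ?_
      rw [mem_ball, dist_eq_norm] at hy
      rw [div_lt_one (by positivity)]
      gcongr
    · rw [indicator_of_notMem hy]
      rw [mem_ball, dist_eq_norm, not_lt] at hy
      refine tendsto_const_nhds.congr fun k => ?_
      exact (kc_zero (stp_profile k) hr hy).symm

/-- ball mass ratio -/
noncomputable def bratio (m : ℕ) (ν : Measure E) (x : E) (r : ℝ) : ℝ := ν.real (ball x r) / r ^ m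

lemma bratio_nonneg (hr : 0 ≤ r) : 0 ≤ bratio m ν x r := by unfold bratio; positivity

/-- **monotonicity of the ball mass ratio** -/
lemma _root_.Vale.Agent.P214.LocStat.bratio_mono [IsFiniteMeasure ν] (h : LocStat m O ν P)
    {r₁ r₂ : ℝ} (h1 : 0 < r₁) (h12 : r₁ ≤ r₂) (hball : closedBall x r₂ ⊆ O) :
    bratio m ν x r₁ ≤ bratio m ν x r₂ := by
  refine le_of_tendsto_of_tendsto' ((tendsto_kc_stp (ν := ν) (x := x) h1).div_const (r₁ ^ m))
    ((tendsto_kc_stp (ν := ν) (x := x) (h1.trans_le h12)).div_const (r₂ ^ m)) fun k => ?_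
  exact h.kratio_mono (stp_profile k) h1 h12 hball

lemma _root_.Vale.Agent.P214.LocStat.bratio_mono' [IsFiniteMeasure ν] (h : LocStat m O ν P)
    {r₁ r₂ : ℝ} (h1 : 0 < r₁) (h12 : r₁ < r₂) (hball : ball x r₂ ⊆ O) :
    bratio m ν x r₁ ≤ bratio m ν x r₂ := by
  -- let the radius increase to `r₂`
  have h2 : 0 < r₂ := h1.trans h12
  have hmono : ∀ s, r₁ ≤ s → s < r₂ → bratio m ν x r₁ ≤ bratio m ν x r₂ * (r₂ / s) ^ m := by
    intro s hs hs2
    have hs0 : 0 < s := h1.trans_le hs
    refine (h.bratio_mono h1 hs ((closedBall_subset_ball hs2).trans hball)).trans ?_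
    unfold bratio
    rw [div_pow, div_mul_div_comm, mul_comm (r₂ ^ m) (s ^ m), ]
    rw [mul_div_mul_right _ _ (by positivity : (r₂ ^ m : ℝ) ≠ 0)]
    have : ν.real (ball x s) ≤ ν.real (ball x r₂) := measureReal_mono (ball_subset_ball hs2.le)
    gcongr
  have hlim : Tendsto (fun s : ℝ => bratio m ν x r₂ * (r₂ / s) ^ m) (𝓝[<] r₂)
      (𝓝 (bratio m ν x r₂ * (r₂ / r₂) ^ m)) := by
    refine Tendsto.mono_left ?_ nhdsWithin_le_nhds
    have : ContinuousAt (fun s : ℝ => bratio m ν x r₂ * (r₂ / s) ^ m) r₂ := by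
      have : ContinuousAt (fun s : ℝ => r₂ / s) r₂ := continuousAt_const.div continuousAt_id h2.ne'
      fun_prop
    exact this
  rw [div_self h2.ne', one_pow, mul_one] at hlim
  refine ge_of_tendsto hlim ?_
  have : Ico r₁ r₂ ∈ 𝓝[<] r₂ := Ico_mem_nhdsLT h12
  filter_upwards [this] with s hs
  exact hmono s hs.1 hs.2

/-- closed balls -/
lemma _root_.Vale.Agent.P214.LocStat.cbratio_le [IsFiniteMeasure ν] (h : LocStat m O ν P)
    {r₁ r₂ : ℝ} (h1 : 0 < r₁) (h12 : r₁ < r₂) (hball : ball x r₂ ⊆ O) :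
    ν.real (closedBall x r₁) / r₁ ^ m ≤ bratio m ν x r₂ := by
  have hlim : Tendsto (fun s : ℝ => bratio m ν x r₂ * (s / r₁) ^ m) (𝓝[>] r₁)
      (𝓝 (bratio m ν x r₂ * (r₁ / r₁) ^ m)) := by
    refine Tendsto.mono_left ?_ nhdsWithin_le_nhds
    have : ContinuousAt (fun s : ℝ => bratio m ν x r₂ * (s / r₁) ^ m) r₁ := by
      have : ContinuousAt (fun s : ℝ => s / r₁) r₁ := continuousAt_id.div_const _
      fun_prop
    exact this
  rw [div_self h1.ne', one_pow, mul_one] at hlim
  refine ge_of_tendsto hlim ?_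
  have : Ioo r₁ r₂ ∈ 𝓝[>] r₁ := Ioo_mem_nhdsGT h12
  filter_upwards [this] with s hs
  have hs0 : 0 < s := h1.trans hs.1
  calc ν.real (closedBall x r₁) / r₁ ^ m ≤ ν.real (ball x s) / r₁ ^ m := by
        have : ν.real (closedBall x r₁) ≤ ν.real (ball x s) :=
          measureReal_mono (closedBall_subset_ball hs.1)
        gcongr
    _ = bratio m ν x s * (s / r₁) ^ m := by
        unfold bratio
        rw [div_pow, div_mul_div_comm, mul_comm (s ^ m) (r₁ ^ m),
          mul_div_mul_right _ _ (by positivity : (s ^ m : ℝ) ≠ 0)]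
    _ ≤ bratio m ν x r₂ * (s / r₁) ^ m := by
        have := h.bratio_mono' (x := x) hs0 hs.2 hball
        gcongr

/-- **layer cake**: kernel integrals in terms of ball masses -/
lemma layer_cake [IsFiniteMeasure ν] (hφ : Profile φ) (hr : 0 < r) :
    ∫ y, kc φ x r y ∂ν = ∫ s in Ioc (0:ℝ) 1, (-deriv φ s) * ν.real (ball x (r * √s)) := by
  -- pointwise formula
  have hpt : ∀ y, kc φ x r y = ∫ s in Ioc (0:ℝ) 1,
      (-deriv φ s) * (ball x (r * √s)).indicator (fun _ => (1:ℝ)) y := by
    intro y
    set t := ‖y - x‖ ^ 2 / r ^ 2 with ht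
    have ht0 : 0 ≤ t := arg_nonneg x r y
    have hmem : ∀ s ∈ Ioc (0:ℝ) 1, (y ∈ ball x (r * √s) ↔ t < s) := by
      intro s hs
      rw [mem_ball, dist_eq_norm, ht, div_lt_iff₀ (by positivity)]
      have h1 : s * r ^ 2 = (r * √s) ^ 2 := by
        rw [mul_pow, Real.sq_sqrt hs.1.le]; ring
      rw [h1]
      constructor
      · intro h2; gcongr
      · intro h2
        exact lt_of_pow_lt_pow_left₀ 2 (by positivity) h2
    have h1 : ∫ s in Ioc (0:ℝ) 1,
        (-deriv φ s) * (ball x (r * √s)).indicator (fun _ => (1:ℝ)) y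
        = ∫ s in Ioc (0:ℝ) 1, (Ioi t).indicator (fun s => -deriv φ s) s := by
      refine setIntegral_congr_fun measurableSet_Ioc fun s hs => ?_
      by_cases hts : t < s
      · rw [indicator_of_mem ((hmem s hs).2 hts), indicator_of_mem (mem_Ioi.2 hts), mul_one]
      · rw [indicator_of_notMem (fun h => hts ((hmem s hs).1 h)),
          indicator_of_notMem (fun h => hts (mem_Ioi.1 h)), mul_zero]
    rw [h1, setIntegral_indicator measurableSet_Ioi]
    have hset : Ioc (0:ℝ) 1 ∩ Ioi t = Ioc t 1 := by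
      ext s; simp only [mem_inter_iff, mem_Ioc, mem_Ioi]
      constructor
      · rintro ⟨⟨-, h1⟩, h2⟩; exact ⟨h2, h1⟩
      · rintro ⟨h1, h2⟩; exact ⟨⟨ht0.trans_lt h1, h2⟩, h1⟩
    rw [hset]
    rcases le_total t 1 with ht1 | ht1
    · have h2 : ∫ s in t..1, deriv φ s = φ 1 - φ t :=
        intervalIntegral.integral_deriv_eq_sub
          (fun s _ => (hφ.hasDerivAt s).differentiableAt)
          (hφ.continuous_deriv.intervalIntegrable _ _)
      rw [intervalIntegral.integral_of_le ht1, hφ.zero 1 le_rfl] at h2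
      rw [integral_neg, h2]
      unfold kc; rw [← ht]; ring
    · rw [Ioc_eq_empty (by simpa using ht1)]
      simp only [setIntegral_empty]
      exact hφ.zero _ ht1
  simp_rw [hpt]
  -- Fubini
  have hmeas : Measurable (fun p : E × ℝ => (-deriv φ p.2) *
      (ball x (r * √p.2)).indicator (fun _ => (1:ℝ)) p.1) := by
    have h1 : Measurable fun p : E × ℝ => -deriv φ p.2 :=
      (hφ.continuous_deriv.measurable.comp measurable_snd).neg
    have hset : MeasurableSet {p : E × ℝ | dist p.1 x < r * √p.2} :=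
      measurableSet_lt (by fun_prop) (by fun_prop)
    have h2 : Measurable fun p : E × ℝ => (ball x (r * √p.2)).indicator (fun _ => (1:ℝ)) p.1 := by
      have : (fun p : E × ℝ => (ball x (r * √p.2)).indicator (fun _ => (1:ℝ)) p.1)
          = {p : E × ℝ | dist p.1 x < r * √p.2}.indicator fun _ => (1:ℝ) := by
        funext p
        by_cases hp : dist p.1 x < r * √p.2
        · rw [indicator_of_mem (show p.1 ∈ ball x (r * √p.2) from hp),
            indicator_of_mem (show p ∈ {p : E × ℝ | dist p.1 x < r * √p.2} from hp)]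
        · rw [indicator_of_notMem (show p.1 ∉ ball x (r * √p.2) from hp),
            indicator_of_notMem (show p ∉ {p : E × ℝ | dist p.1 x < r * √p.2} from hp)]
      rw [this]
      exact measurable_const.indicator hset
    exact h1.mul h2
  obtain ⟨C, hC0, hC⟩ := hφ.exists_bound
  have hint : Integrable (Function.uncurry fun (y : E) (s : ℝ) => (-deriv φ s) *
      (ball x (r * √s)).indicator (fun _ => (1:ℝ)) y)
      (ν.prod (volume.restrict (Ioc (0:ℝ) 1))) := by
    haveI : IsFiniteMeasure (volume.restrict (Ioc (0:ℝ) 1)) := ⟨by simp⟩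
    refine Integrable.mono' (integrable_const C) hmeas.aestronglyMeasurable ?_
    have h1 : ∀ᵐ p ∂(ν.prod (volume.restrict (Ioc (0:ℝ) 1))), p.2 ∈ Ioc (0:ℝ) 1 := by
      have := Measure.quasiMeasurePreserving_snd (μ := ν) (ν := volume.restrict (Ioc (0:ℝ) 1))
      exact this.ae (ae_restrict_mem measurableSet_Ioc)
    filter_upwards [h1] with p hp
    simp only [Function.uncurry]
    rw [norm_mul, norm_neg]
    calc ‖deriv φ p.2‖ * ‖(ball x (r * √p.2)).indicator (fun _ => (1:ℝ)) p.1‖ ≤ C * 1 := by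
          refine mul_le_mul (hC _ hp.1.le) ?_ (norm_nonneg _) hC0
          by_cases h : p.1 ∈ ball x (r * √p.2)
          · rw [indicator_of_mem h]; simp
          · rw [indicator_of_notMem h]; simp
      _ = C := mul_one C
  rw [integral_integral_swap hint]
  refine setIntegral_congr_fun measurableSet_Ioc fun s hs => ?_
  rw [integral_const_mul, integral_indicator measurableSet_ball]
  simp

end Vale.Agent.P214.MU
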