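import Vale.Agent.P214.Bdl.B1

/-!
# P214, block MONO-UP: monotonicity for general radial kernels and for balls

`kc φ x r y = φ (‖y - x‖^2 / r^2)`, `Profile φ`: `C^1`, vanishing for `s ≥ 1`, nonincreasing on
`[0, ∞)`.
-/

open Set Filter Topology MeasureTheory Metric
open scoped RealInnerProductSpace ENNReal

set_option linter.all false

namespace Vale.Agent.P214.MU

variable {E : Type*} [NormedAddCommGroup E] [InnerProductSpace ℝ E] [FiniteDimensional ℝ E]

/-- an admissible radial profile -/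
structure Profile (φ : ℝ → ℝ) : Prop where
  smooth : ContDiff ℝ 1 φ
  zero : ∀ s, 1 ≤ s → φ s = 0
  anti : ∀ s, 0 ≤ s → deriv φ s ≤ 0

namespace Profile

variable {φ : ℝ → ℝ} (hφ : Profile φ)

include hφ

lemma hasDerivAt (s : ℝ) : HasDerivAt φ (deriv φ s) s :=
  (hφ.smooth.differentiable (by norm_num) s).hasDerivAt

lemma continuous : Continuous φ := hφ.smooth.continuous

lemma continuous_deriv : Continuous (deriv φ) := hφ.smooth.continuous_deriv (by norm_num)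

lemma deriv_zero {s : ℝ} (hs : 1 ≤ s) : deriv φ s = 0 := by
  rcases hs.lt_or_eq with h | h
  · have : φ =ᶠ[𝓝 s] fun _ => (0:ℝ) := by
      filter_upwards [Ioi_mem_nhds h] with u hu
      exact hφ.zero u (le_of_lt hu)
    rw [this.deriv_eq]; simp
  · -- at `1`: right derivative is zero
    rw [← h]
    have h1 : HasDerivWithinAt φ (deriv φ 1) (Ici 1) 1 := (hφ.hasDerivAt 1).hasDerivWithinAt
    have h2 : HasDerivWithinAt φ 0 (Ici 1) 1 := by
      refine (hasDerivWithinAt_const (1:ℝ) (Ici 1) (0:ℝ)).congr (fun u hu => hφ.zero u hu)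
        (hφ.zero 1 le_rfl)
    exact (uniqueDiffWithinAt_Ici (1:ℝ)).eq_deriv (Ici 1) h1 h2

lemma antitoneOn : AntitoneOn φ (Ici 0) := by
  refine antitoneOn_of_deriv_nonpos (convex_Ici 0) hφ.continuous.continuousOn
    (fun s _ => (hφ.hasDerivAt s).differentiableAt.differentiableWithinAt) fun s hs => ?_
  rw [interior_Ici] at hs
  exact hφ.anti s (le_of_lt hs)

lemma nonneg {s : ℝ} (hs : 0 ≤ s) : 0 ≤ φ s := by
  rcases le_total s 1 with h | h
  · have := hφ.antitoneOn (mem_Ici.2 hs) (mem_Ici.2 (zero_le_one (α := ℝ))) h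
    rwa [hφ.zero 1 le_rfl] at this
  · rw [hφ.zero s h]

lemma le_zero_val {s : ℝ} (hs : 0 ≤ s) : φ s ≤ φ 0 :=
  hφ.antitoneOn (mem_Ici.2 (le_refl (0:ℝ))) (mem_Ici.2 hs) hs

lemma exists_bound : ∃ C, 0 ≤ C ∧ ∀ s, 0 ≤ s → |deriv φ s| ≤ C := by
  obtain ⟨C, hC⟩ := (isCompact_Icc (a := (0:ℝ)) (b := 1)).exists_bound_of_continuousOn
    hφ.continuous_deriv.continuousOn
  refine ⟨max C 0, le_max_right _ _, fun s hs => ?_⟩
  rcases le_total s 1 with h | h
  · exact (hC s ⟨hs, h⟩).trans (le_max_left _ _)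
  · rw [hφ.deriv_zero h]; simp

end Profile

/-- the kernel attached to a profile -/
noncomputable def kc (φ : ℝ → ℝ) (x : E) (r : ℝ) (y : E) : ℝ := φ (‖y - x‖ ^ 2 / r ^ 2)

lemma prof_profile : Profile prof where
  smooth := contDiff_prof
  zero := fun s hs => prof_of_one_le hs
  anti := fun s _ => by
    rw [(hasDerivAt_prof s).deriv]
    have := dprof_nonneg s
    linarith

lemma kc_prof (x : E) (r : ℝ) (y : E) : kc prof x r y = cut x r y := rfl

variable {φ : ℝ → ℝ} {x y : E} {r : ℝ}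

lemma arg_nonneg (x : E) (r : ℝ) (y : E) : 0 ≤ ‖y - x‖ ^ 2 / r ^ 2 := by positivity

lemma kc_nonneg (hφ : Profile φ) (x : E) (r : ℝ) (y : E) : 0 ≤ kc φ x r y :=
  hφ.nonneg (arg_nonneg x r y)

lemma kc_le (hφ : Profile φ) (x : E) (r : ℝ) (y : E) : kc φ x r y ≤ φ 0 :=
  hφ.le_zero_val (arg_nonneg x r y)

lemma one_le_arg (hr : 0 < r) (h : r ≤ ‖y - x‖) : 1 ≤ ‖y - x‖ ^ 2 / r ^ 2 := by
  rw [one_le_div (by positivity)]; gcongr

lemma kc_zero (hφ : Profile φ) (hr : 0 < r) (h : r ≤ ‖y - x‖) : kc φ x r y = 0 :=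
  hφ.zero _ (one_le_arg hr h)

lemma kd_zero (hφ : Profile φ) (hr : 0 < r) (h : r ≤ ‖y - x‖) :
    deriv φ (‖y - x‖ ^ 2 / r ^ 2) = 0 :=
  hφ.deriv_zero (one_le_arg hr h)

lemma continuous_kc (hφ : Profile φ) (x : E) (r : ℝ) : Continuous (kc φ x r) :=
  hφ.continuous.comp (by fun_prop)

lemma continuous_kd (hφ : Profile φ) (x : E) (r : ℝ) :
    Continuous fun y : E => deriv φ (‖y - x‖ ^ 2 / r ^ 2) :=
  hφ.continuous_deriv.comp (by fun_prop)

lemma contDiff_kc (hφ : Profile φ) (x : E) (r : ℝ) : ContDiff ℝ 1 (kc φ x r) := by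
  have h1 : ContDiff ℝ 1 fun y : E => ‖y - x‖ ^ 2 / r ^ 2 :=
    ((contDiff_id.sub contDiff_const).norm_sq ℝ).div_const _
  exact hφ.smooth.comp h1

lemma tsupport_kc (hφ : Profile φ) (hr : 0 < r) : tsupport (kc φ x r) ⊆ closedBall x r := by
  refine closure_minimal ?_ isClosed_closedBall
  intro y hy
  rw [mem_closedBall, dist_eq_norm]
  by_contra h
  exact hy (kc_zero hφ hr (not_le.mp h).le)

lemma hasCompactSupport_kc (hφ : Profile φ) (hr : 0 < r) : HasCompactSupport (kc φ x r) :=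
  (isCompact_closedBall x r).of_isClosed_subset (isClosed_tsupport _) (tsupport_kc hφ hr)

lemma hasFDerivAt_kc (hφ : Profile φ) (x : E) (r : ℝ) (y : E) :
    HasFDerivAt (kc φ x r)
      ((deriv φ (‖y - x‖ ^ 2 / r ^ 2) * (2 / r ^ 2)) • innerSL ℝ (y - x)) y := by
  have h1 : HasFDerivAt (fun y : E => y - x) (ContinuousLinearMap.id ℝ E) y :=
    (hasFDerivAt_id y).sub_const x
  have h2 : HasFDerivAt (fun y : E => ‖y - x‖ ^ 2)
      (2 • (innerSL ℝ (y - x)).comp (ContinuousLinearMap.id ℝ E)) y := h1.norm_sq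
  have h3 : HasFDerivAt (fun y : E => ‖y - x‖ ^ 2 / r ^ 2)
      ((r ^ 2)⁻¹ • (2 • (innerSL ℝ (y - x)).comp (ContinuousLinearMap.id ℝ E))) y := by
    have := h2.const_mul ((r ^ 2)⁻¹)
    refine this.congr_of_eventuallyEq (Eventually.of_forall fun z => ?_)
    simp [div_eq_inv_mul]
  have h4 := (hφ.hasDerivAt (‖y - x‖ ^ 2 / r ^ 2)).comp_hasFDerivAt y h3
  refine h4.congr_fderiv ?_
  ext v
  simp only [ContinuousLinearMap.smul_apply, ContinuousLinearMap.comp_apply,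
    ContinuousLinearMap.id_apply, smul_eq_mul, innerSL_apply_apply, nsmul_eq_mul]
  push_cast
  ring

lemma fderiv_kc (hφ : Profile φ) (x : E) (r : ℝ) (y v : E) :
    fderiv ℝ (kc φ x r) y v = deriv φ (‖y - x‖ ^ 2 / r ^ 2) * (2 / r ^ 2) * ⟪y - x, v⟫ := by
  rw [(hasFDerivAt_kc hφ x r y).fderiv]
  rfl

variable [MeasurableSpace E] [BorelSpace E]
variable {m : ℕ} {O : Set E} {ν : Measure E} {P : E → E →L[ℝ] E}

lemma integrable_kc [IsFiniteMeasure ν] (hφ : Profile φ) (hr : 0 < r) :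
    Integrable (kc φ x r) ν :=
  integrable_of_ball (x := x) (continuous_kc hφ x r) hr fun y hy => kc_zero hφ hr hy

/-- the normal part term of the monotonicity formula -/
noncomputable def ntilt (φ : ℝ → ℝ) (ν : Measure E) (P : E → E →L[ℝ] E) (x : E) (r : ℝ) : ℝ :=
  ∫ y, (-deriv φ (‖y - x‖ ^ 2 / r ^ 2)) * ‖(y - x) - P y (y - x)‖ ^ 2 ∂ν

lemma ntilt_nonneg (hφ : Profile φ) : 0 ≤ ntilt φ ν P x r :=
  integral_nonneg fun y => mul_nonneg (by
    have := hφ.anti _ (arg_nonneg x r y); linarith) (sq_nonneg _)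

lemma hasDerivAt_kint [IsFiniteMeasure ν] (hφ : Profile φ) (hr : 0 < r) :
    HasDerivAt (fun r => ∫ y, kc φ x r y ∂ν)
      (∫ y, (-deriv φ (‖y - x‖ ^ 2 / r ^ 2)) * (2 * ‖y - x‖ ^ 2 / r ^ 3) ∂ν) r := by
  have hs : Ioo (r / 2) (2 * r) ∈ 𝓝 r := Ioo_mem_nhds (by linarith) (by linarith)
  obtain ⟨C, hC0, hC⟩ := hφ.exists_bound
  have key := hasDerivAt_integral_of_dominated_loc_of_deriv_le (μ := ν) (𝕜 := ℝ)
    (F := fun r y => kc φ x r y)
    (F' := fun r y => (-deriv φ (‖y - x‖ ^ 2 / r ^ 2)) * (2 * ‖y - x‖ ^ 2 / r ^ 3)) (x₀ := r)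
    (s := Ioo (r / 2) (2 * r)) (bound := fun _ => C * (2 * (2 * r) ^ 2 / (r / 2) ^ 3))
    hs ?_ ?_ ?_ ?_ ?_ ?_
  · exact key.2
  · exact Eventually.of_forall fun s => (continuous_kc hφ x s).aestronglyMeasurable
  · exact integrable_kc hφ hr
  · have : Continuous fun y : E => (-deriv φ (‖y - x‖ ^ 2 / r ^ 2)) * (2 * ‖y - x‖ ^ 2 / r ^ 3) := by
      have := continuous_kd hφ x r
      fun_prop
    exact this.aestronglyMeasurable
  · refine Eventually.of_forall fun y s hs => ?_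
    have hs0 : 0 < s := by linarith [hs.1]
    by_cases h : s ≤ ‖y - x‖
    · rw [kd_zero hφ hs0 h]; simp; positivity
    · have h2 : ‖y - x‖ ≤ 2 * r := by linarith [hs.2, not_le.mp h]
      have h3 := hC _ (arg_nonneg x s y)
      rw [norm_mul, norm_neg, Real.norm_eq_abs,
        Real.norm_of_nonneg (by positivity : 0 ≤ 2 * ‖y - x‖ ^ 2 / s ^ 3)]
      have h6 : r / 2 ≤ s := hs.1.le
      gcongr
  · exact integrable_const _
  · refine Eventually.of_forall fun y s hs => ?_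
    have hs0 : 0 < s := by linarith [hs.1]
    have h1 : HasDerivAt (fun s : ℝ => ‖y - x‖ ^ 2 / s ^ 2) (-(2 * ‖y - x‖ ^ 2 / s ^ 3)) s := by
      have h := (hasDerivAt_pow 2 s).inv (by positivity)
      have h' := h.const_mul (‖y - x‖ ^ 2)
      refine (h'.congr_of_eventuallyEq ?_).congr_deriv ?_
      · exact Eventually.of_forall fun z => by simp [div_eq_mul_inv]
      · simp; field_simp
    have h2 := (hφ.hasDerivAt (‖y - x‖ ^ 2 / s ^ 2)).comp s h1
    refine h2.congr_deriv ?_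
    ring

lemma integrable_ntilt [IsFiniteMeasure ν] (h : LocStat m O ν P) (hφ : Profile φ) (hr : 0 < r) :
    Integrable (fun y => (-deriv φ (‖y - x‖ ^ 2 / r ^ 2)) * ‖(y - x) - P y (y - x)‖ ^ 2) ν := by
  have hid : AEStronglyMeasurable (fun y : E => y - x) ν :=
    (by fun_prop : Continuous fun y : E => y - x).aestronglyMeasurable
  have hM : AEStronglyMeasurable (fun y => ‖(y - x) - P y (y - x)‖ ^ 2) ν :=
    ((hid.sub (aesm_clm_apply h.meas hid)).norm).pow 2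
  have hb : Integrable (fun y => (-deriv φ (‖y - x‖ ^ 2 / r ^ 2)) * (2 * ‖y - x‖) ^ 2) ν := by
    refine integrable_of_ball (x := x) ?_ hr fun y hy => by rw [kd_zero hφ hr hy]; ring
    have h1 := continuous_kd hφ x r
    fun_prop
  refine hb.mono' ((continuous_kd hφ x r).neg.aestronglyMeasurable.mul hM) ?_
  filter_upwards [h.norm_le] with y hy
  have h1 : ‖(y - x) - P y (y - x)‖ ≤ 2 * ‖y - x‖ := by
    calc ‖(y - x) - P y (y - x)‖ ≤ ‖y - x‖ + ‖P y (y - x)‖ := norm_sub_le _ _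
      _ ≤ ‖y - x‖ + ‖y - x‖ := by
          gcongr
          simpa using (P y).le_of_opNorm_le hy (y - x)
      _ = 2 * ‖y - x‖ := by ring
  have h2 : 0 ≤ -deriv φ (‖y - x‖ ^ 2 / r ^ 2) := by
    have := hφ.anti _ (arg_nonneg x r y); linarith
  rw [norm_mul, Real.norm_of_nonneg h2, Real.norm_of_nonneg (sq_nonneg _)]
  gcongr

lemma norm_sub_proj_sq {Q : E →L[ℝ] E} (hQ : ∃ T : Submodule ℝ E, Module.finrank ℝ T = m ∧
    Q = T.starProjection) (v : E) : ⟪v, Q v⟫ = ‖v‖ ^ 2 - ‖v - Q v‖ ^ 2 := by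
  obtain ⟨T, -, rfl⟩ := hQ
  have h1 : ⟪v - T.starProjection v, T.starProjection v⟫ = 0 := by
    exact Submodule.starProjection_inner_eq_zero v _ (T.starProjection_apply_mem v)
  have h2 : ⟪v, T.starProjection v⟫ = ‖T.starProjection v‖ ^ 2 := by
    have : ⟪v, T.starProjection v⟫ = ⟪v - T.starProjection v, T.starProjection v⟫
        + ⟪T.starProjection v, T.starProjection v⟫ := by
      rw [← inner_add_left]; congr 1; abel
    rw [this, h1, zero_add, real_inner_self_eq_norm_sq]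
  have h3 : ‖v‖ ^ 2 = ‖v - T.starProjection v‖ ^ 2 + ‖T.starProjection v‖ ^ 2 := by
    have h4 : v = (v - T.starProjection v) + T.starProjection v := by abel
    conv_lhs => rw [h4]
    rw [@norm_add_sq_real, h1]; ring
  rw [h2, h3]; ring

/-- **monotonicity identity** for a general profile -/
lemma _root_.Vale.Agent.P214.LocStat.kernel_identity [IsFiniteMeasure ν] (h : LocStat m O ν P)
    (hφ : Profile φ) (hr : 0 < r) (hball : closedBall x r ⊆ O) :
    r * (∫ y, (-deriv φ (‖y - x‖ ^ 2 / r ^ 2)) * (2 * ‖y - x‖ ^ 2 / r ^ 3) ∂ν)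
      - m * ∫ y, kc φ x r y ∂ν = 2 / r ^ 2 * ntilt φ ν P x r := by
  have key := h.radial x (contDiff_kc hφ x r) (hasCompactSupport_kc hφ hr)
    ((tsupport_kc hφ hr).trans hball)
  have h1 := integrable_ntilt (x := x) h hφ hr
  have h2 := integrable_kc (ν := ν) (x := x) hφ hr
  have h3 : Integrable (fun y => (-deriv φ (‖y - x‖ ^ 2 / r ^ 2)) * ‖y - x‖ ^ 2) ν := by
    refine integrable_of_ball (x := x) ?_ hr fun y hy => by rw [kd_zero hφ hr hy]; ring
    have h1 := continuous_kd hφ x r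
    fun_prop
  have h4 : ∫ y, ((m : ℝ) * kc φ x r y - 2 / r ^ 2 * ((-deriv φ (‖y - x‖ ^ 2 / r ^ 2)) *
      ‖y - x‖ ^ 2) + 2 / r ^ 2 * ((-deriv φ (‖y - x‖ ^ 2 / r ^ 2)) *
        ‖(y - x) - P y (y - x)‖ ^ 2)) ∂ν = 0 := by
    rw [← key]
    refine integral_congr_ae ?_
    filter_upwards [h.proj] with y hy
    rw [fderiv_kc hφ, norm_sub_proj_sq hy]
    ring
  rw [integral_add (f := fun y => (m : ℝ) * kc φ x r y - 2 / r ^ 2 *
      ((-deriv φ (‖y - x‖ ^ 2 / r ^ 2)) * ‖y - x‖ ^ 2))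
      ((h2.const_mul _).sub (h3.const_mul _)) (h1.const_mul _),
    integral_sub (h2.const_mul _) (h3.const_mul _), integral_const_mul, integral_const_mul,
    integral_const_mul] at h4
  have h5 : ∫ y, (-deriv φ (‖y - x‖ ^ 2 / r ^ 2)) * (2 * ‖y - x‖ ^ 2 / r ^ 3) ∂ν
      = 2 / r ^ 3 * ∫ y, (-deriv φ (‖y - x‖ ^ 2 / r ^ 2)) * ‖y - x‖ ^ 2 ∂ν := by
    rw [← integral_const_mul]
    refine integral_congr_ae (Eventually.of_forall fun y => ?_)
    simp only; ring
  rw [h5]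
  have h6 : r * (2 / r ^ 3 * ∫ y, (-deriv φ (‖y - x‖ ^ 2 / r ^ 2)) * ‖y - x‖ ^ 2 ∂ν)
      = 2 / r ^ 2 * ∫ y, (-deriv φ (‖y - x‖ ^ 2 / r ^ 2)) * ‖y - x‖ ^ 2 ∂ν := by
    field_simp
  rw [h6]
  unfold ntilt
  linarith

/-- kernel mass ratio -/
noncomputable def kratio (m : ℕ) (φ : ℝ → ℝ) (ν : Measure E) (x : E) (r : ℝ) : ℝ :=
  (∫ y, kc φ x r y ∂ν) / r ^ m

lemma kratio_prof : kratio m prof ν x r = ratio m ν x r := rfl

/-- exact derivative of the kernel mass ratio -/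
lemma _root_.Vale.Agent.P214.LocStat.hasDerivAt_kratio [IsFiniteMeasure ν] (h : LocStat m O ν P)
    (hφ : Profile φ) (hr : 0 < r) (hball : closedBall x r ⊆ O) :
    HasDerivAt (kratio m φ ν x) (2 * ntilt φ ν P x r / r ^ (m + 3)) r := by
  have h1 := hasDerivAt_kint (ν := ν) (x := x) hφ hr
  have h2 := hasDerivAt_pow m r
  have h3 := h1.div h2 (by positivity)
  have key := h.kernel_identity hφ hr hball
  refine h3.congr_deriv ?_
  have hA : (∫ y, (-deriv φ (‖y - x‖ ^ 2 / r ^ 2)) * (2 * ‖y - x‖ ^ 2 / r ^ 3) ∂ν)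
      = (2 / r ^ 2 * ntilt φ ν P x r + m * ∫ y, kc φ x r y ∂ν) / r := by
    rw [eq_div_iff hr.ne']; linarith
  rw [hA]
  generalize (∫ y, kc φ x r y ∂ν) = B
  rcases Nat.eq_zero_or_pos m with rfl | hm
  · simp; field_simp
  · have : r ^ m = r ^ (m - 1) * r := by rw [← pow_succ]; congr 1; omega
    have h5 : r ^ (m - 1) * r ^ 4 = r ^ (m + 3) := by rw [← pow_add]; congr 1; omega
    rw [← h5, this]
    field_simp
    ring

lemma _root_.Vale.Agent.P214.LocStat.kratio_mono [IsFiniteMeasure ν] (h : LocStat m O ν P)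
    (hφ : Profile φ) {r₁ r₂ : ℝ} (h1 : 0 < r₁) (h12 : r₁ ≤ r₂) (hball : closedBall x r₂ ⊆ O) :
    kratio m φ ν x r₁ ≤ kratio m φ ν x r₂ := by
  have hd : ∀ s ∈ Icc r₁ r₂, HasDerivAt (kratio m φ ν x) (2 * ntilt φ ν P x s / s ^ (m + 3)) s :=
    fun s hs => h.hasDerivAt_kratio hφ (h1.trans_le hs.1)
      ((closedBall_subset_closedBall hs.2).trans hball)
  have hmono : MonotoneOn (kratio m φ ν x) (Icc r₁ r₂) := by
    refine monotoneOn_of_deriv_nonneg (convex_Icc r₁ r₂)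
      (fun s hs => (hd s hs).continuousAt.continuousWithinAt)
      (fun s hs => (hd s (interior_subset hs)).differentiableAt.differentiableWithinAt)
      fun s hs => ?_
    rw [(hd s (interior_subset hs)).deriv]
    have h0 : 0 < s := h1.trans_le (interior_subset hs).1
    have := ntilt_nonneg (ν := ν) (P := P) (x := x) (r := s) hφ
    positivity
  exact hmono ⟨le_rfl, h12⟩ ⟨h12, le_rfl⟩ h12

end Vale.Agent.P214.MU
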